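import Vale.Agent.P184.R3.UDefs

/-! The data of the analytic theorem. -/

namespace Vale.Agent.P184.H70

open Vale.Agent.P184.Un

universe u w

/-- data at `x` for the finite set `S` -/
def Fd {G : Type*} [Group G] (x : G) (S : Finset G) (κ δ : ℝ) (M : ℕ) : Prop :=
  ∃ (D : Subgroup G) (n : ℕ) (ζ u : G → Fin n → ℂ) (E : Type w) (_ : NormedAddCommGroup E)
    (_ : InnerProductSpace ℝ E) (f : G → E),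
    x ∈ D ∧ D ≤ Cen x ∧ CoAmenable (Cen x) D ∧ (∀ d ∈ D, ∀ j, ‖ζ d j‖ = 1) ∧ (∀ j, ζ x j ≠ 1) ∧
    (∀ d ∈ D, ∀ p q, ‖f (d * p) - f (d * q)‖ = ‖f p - f q‖) ∧
    (∀ (j : ℕ) (p : G), ‖f (x ^ (2 ^ j) * p) - f p‖ ^ 2 ≤ j + ‖f (x * p) - f p‖ ^ 2) ∧
    (∀ s ∈ S, ∀ p, ‖f (p * s) - f p‖ ≤ κ) ∧
    (∀ d ∈ D, ∀ p, ‖f (x * p) - f p‖ < 3 * M → ∀ j, u (d * p) j = ζ d j * u p j) ∧
    (∀ p, ‖f (x * p) - f p‖ < 3 * M → ∑ j, ‖u p j‖ ^ 2 = 1) ∧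
    ∀ p, ‖f (x * p) - f p‖ < 3 * M → ∀ s ∈ S, ‖f (x * (p * s)) - f (p * s)‖ < 3 * M →
      ∑ j, ‖u (p * s) j - u p j‖ ^ 2 ≤ δ ^ 2

/-- [DATA] the analytic theorem -/
def DataStmt : Prop := ∀ (G : Type u) [Group G] (q : ℕ) (e : Mat G q), IsIdem e →
  ∃ S : Finset G, 1 ∈ S ∧ (∀ s ∈ S, s⁻¹ ∈ S) ∧ ∀ κ : ℝ, ∃ δ : ℝ, 0 < δ ∧ ∃ M : ℕ, ∀ x : G,
    Fd.{w} x S κ δ M → tau (ConjClasses.mk x) e = 0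

end Vale.Agent.P184.H70
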