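import Vale.Agent.P184.H70.Dy
import Vale.Agent.P184.H70.Lit2
import Vale.Agent.P184.H38.CS

set_option linter.all false

/-! The field of an element with data `Fd`, and the bound of the traces. -/

open scoped Pointwise

noncomputable section

namespace Vale.Agent.P184.H70

universe u w

open Vale.Agent.P184.Un Vale.Agent.P184.H505 Vale.Agent.P184.H38 Filter
open scoped InnerProductSpace Topology

/-! ### the angle -/

/-- the angle -/
def ang (M : ℕ) (t : ℝ) : ℝ := max 0 (min (Real.pi / 2) ((t - M) / M))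

section ang

variable {M : ℕ} (hM : 1 ≤ M)

theorem ang_nonneg (M : ℕ) (t : ℝ) : 0 ≤ ang M t := le_max_left _ _

theorem ang_le (M : ℕ) (t : ℝ) : ang M t ≤ Real.pi / 2 :=
  max_le (by positivity) (min_le_left _ _)

include hM in
theorem ang_lip (t s : ℝ) : |ang M t - ang M s| ≤ |t - s| / M := by
  have hM0 : (0 : ℝ) < M := by exact_mod_cast hM
  unfold ang
  have h0 := abs_max_sub_max_le_max (0 : ℝ) (min (Real.pi / 2) ((t - M) / M)) 0
    (min (Real.pi / 2) ((s - M) / M))
  rw [sub_self, abs_zero] at h0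
  replace h0 := h0.trans (le_of_eq (max_eq_right (abs_nonneg _)))
  have h := abs_min_sub_min_le_max (Real.pi / 2) ((t - M) / M) (Real.pi / 2) ((s - M) / M)
  refine h0.trans (h.trans ?_)
  rw [sub_self, abs_zero, max_eq_right (abs_nonneg _), ← sub_div, abs_div, abs_of_pos hM0]
  rw [show t - (M : ℝ) - (s - M) = t - s by ring]

include hM in
theorem ang_zero {t : ℝ} (ht : t ≤ M) : ang M t = 0 := by
  have hM0 : (0 : ℝ) < M := by exact_mod_cast hM
  unfold ang
  refine max_eq_left ((min_le_right _ _).trans ?_)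
  exact div_nonpos_of_nonpos_of_nonneg (by linarith) hM0.le

include hM in
theorem ang_top {t : ℝ} (ht : 3 * M ≤ t) : ang M t = Real.pi / 2 := by
  have hM0 : (0 : ℝ) < M := by exact_mod_cast hM
  have hpi := Real.pi_lt_four
  have hpi0 := Real.pi_pos
  unfold ang
  rw [min_eq_left, max_eq_right (by positivity)]
  rw [le_div_iff₀ hM0]
  nlinarith

include hM in
theorem cos_ang_lip (t s : ℝ) : |Real.cos (ang M t) - Real.cos (ang M s)| ≤ |t - s| / M :=
  (Real.abs_cos_sub_cos_le _ _).trans (ang_lip hM t s)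

include hM in
theorem sin_ang_lip (t s : ℝ) : |Real.sin (ang M t) - Real.sin (ang M s)| ≤ |t - s| / M :=
  (Real.abs_sin_sub_sin_le _ _).trans (ang_lip hM t s)

include hM in
theorem cos_top {t : ℝ} (ht : ¬ t < 3 * M) : Real.cos (ang M t) = 0 := by
  rw [ang_top hM (not_lt.1 ht), Real.cos_pi_div_two]

include hM in
theorem sin_low {t : ℝ} (ht : t ≤ M) : Real.sin (ang M t) = 0 := by
  rw [ang_zero hM ht, Real.sin_zero]

theorem sin_nonneg' (M : ℕ) (t : ℝ) : 0 ≤ Real.sin (ang M t) :=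
  Real.sin_nonneg_of_nonneg_of_le_pi (ang_nonneg M t)
    ((ang_le M t).trans (by have := Real.pi_pos; linarith))

/-- the amplitude -/
def al (M : ℕ) (t : ℝ) : ℝ := Real.sin (ang M t) / t

include hM in
theorem al_low {t : ℝ} (ht : t ≤ M) : al M t = 0 := by
  rw [al, sin_low hM ht, zero_div]

include hM in
theorem al_mul {t : ℝ} (ht : M < t) : al M t * t = Real.sin (ang M t) := by
  have hM0 : (0 : ℝ) < M := by exact_mod_cast hM
  rw [al, div_mul_cancel₀ _ (by linarith)]

include hM in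
theorem al_sq (t : ℝ) : al M t * al M t * t ^ 2 = Real.sin (ang M t) ^ 2 := by
  by_cases ht : M < t
  · rw [← al_mul hM ht]; ring
  · rw [al_low hM (not_lt.1 ht), sin_low hM (not_lt.1 ht)]; ring

include hM in
/-- the variation of the amplitude -/
theorem al_var {t s d : ℝ} (hs0 : 0 ≤ s) (hst : s ≤ t) (ht : M < t) (hd : |t - s| ≤ 2 * d) :
    |al M t - al M s| * t + 2 * (|al M s| * d) ≤ 6 * d / M := by
  have hM0 : (0 : ℝ) < M := by exact_mod_cast hM
  have ht0 : 0 < t := hM0.trans ht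
  have hd0 : 0 ≤ d := by have := abs_nonneg (t - s); linarith
  have h1 := sin_ang_lip hM t s
  have h2 : |t - s| / M ≤ 2 * d / M := by gcongr
  by_cases hs : M < s
  · have hs1 : 0 < s := hM0.trans hs
    have e1 : |al M t - al M s| * t = |(al M t - al M s) * t| := by
      rw [abs_mul, abs_of_pos ht0]
    have e2 : (al M t - al M s) * t = (Real.sin (ang M t) - Real.sin (ang M s)) +
        Real.sin (ang M s) * ((s - t) / s) := by
      rw [sub_mul, al_mul hM ht, al]
      field_simp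
      ring
    have h3 : |Real.sin (ang M s)| ≤ 1 := Real.abs_sin_le_one _
    have h4 : |(s - t) / s| ≤ 2 * d / M := by
      rw [abs_div, abs_of_pos hs1, abs_sub_comm]
      gcongr
    have h5 : |Real.sin (ang M s) * ((s - t) / s)| ≤ 2 * d / M := by
      rw [abs_mul]
      have := abs_nonneg ((s - t) / s)
      nlinarith
    have h6 : |al M s| ≤ 1 / M := by
      rw [al, abs_div, abs_of_pos hs1]
      exact div_le_div₀ zero_le_one h3 hM0 hs.le
    have h7 : |al M s| * d ≤ d / M := by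
      have := mul_le_mul_of_nonneg_right h6 hd0
      rw [one_div_mul_eq_div] at this
      exact this
    rw [e1, e2]
    have h8 := abs_add_le (Real.sin (ang M t) - Real.sin (ang M s))
      (Real.sin (ang M s) * ((s - t) / s))
    have e3 : 6 * d / (M : ℝ) = 2 * d / M + 2 * d / M + 2 * (d / M) := by ring
    rw [e3]
    linarith
  · rw [al_low hM (not_lt.1 hs), sub_zero, abs_zero, zero_mul, mul_zero, add_zero]
    have e1 : |al M t| * t = |Real.sin (ang M t)| := by
      rw [← al_mul hM ht, abs_mul, abs_of_pos ht0]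
    rw [sin_low hM (not_lt.1 hs), sub_zero] at h1
    rw [e1]
    have h3 : 2 * d / (M : ℝ) ≤ 6 * d / M := by gcongr; linarith
    linarith

end ang

/-! ### the field -/

section Field

variable {G : Type*} [Group G] {E : Type*} [NormedAddCommGroup E] [InnerProductSpace ℝ E]
  (x : G) (f : G → E) (M : ℕ) {n : ℕ} (φ : Fin n → ℝ) (u : G → Fin n → ℂ)

/-- the displacement -/
def tt (p : G) : ℝ := ‖f (x * p) - f p‖

/-- the part with values in the finite dimensional space -/
def Uf (p : G) : Fin n → ℂ := fun j => (Real.cos (ang M (tt x f p)) : ℂ) * u p j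

/-- the outer part -/
def Wf (p : G) : G →₀ ℝ := Finsupp.single p (al M (tt x f p))

/-- the field -/
def Vf (p : G) : (Fin n → ℂ) × (G →₀ ℝ) := (Uf x f M u p, Wf x f M p)

/-- the form -/
def BF : LinearMap.BilinForm ℝ ((Fin n → ℂ) × (G →₀ ℝ)) := dS (SM φ) (frS (SF x f))

theorem frS_sg {G : Type*} (S : G → G → ℝ) (a b : ℝ) (p q : G) :
    frS S (Finsupp.single p a) (Finsupp.single q b) = a * b * S p q := by
  rw [frS_apply]
  simp

theorem BF_apply (p q : G) : BF x f φ (Vf x f M u p) (Vf x f M u q) =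
    SM φ (Uf x f M u p) (Uf x f M u q) + al M (tt x f p) * al M (tt x f q) * SF x f p q := by
  rw [BF, dS_apply, Vf, Vf, Wf, Wf, frS_sg]

variable {x f M φ u}

theorem tt_nonneg (p : G) : 0 ≤ tt x f p := norm_nonneg _

theorem SF_self (p : G) : SF x f p p = tt x f p ^ 2 := by
  rw [SF, tt, sub_self, norm_zero]; ring

theorem SF_cyc (hx : ∀ p q, ‖f (x * p) - f (x * q)‖ = ‖f p - f q‖) (p q : G) :
    SF x f q (x * p) = - SF x f p q := by
  rw [SF, SF, hx, norm_sub_rev (f q), norm_sub_rev (f q)]; ring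

theorem tt_mul {d : G} (hc : d * x = x * d) (hd : ∀ p q, ‖f (d * p) - f (d * q)‖ = ‖f p - f q‖)
    (p : G) : tt x f (d * p) = tt x f p := by
  rw [tt, tt, ← mul_assoc, ← hc, mul_assoc, hd]

theorem SF_inv {d : G} (hc : d * x = x * d) (hd : ∀ p q, ‖f (d * p) - f (d * q)‖ = ‖f p - f q‖)
    (p q : G) : SF x f (d * p) (d * q) = SF x f p q := by
  rw [SF, SF, ← mul_assoc, ← hc, mul_assoc, hd, hd]

theorem tt_lip (hx : ∀ p q, ‖f (x * p) - f (x * q)‖ = ‖f p - f q‖) (p q : G) :
    |tt x f p - tt x f q| ≤ 2 * ‖f p - f q‖ := by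
  have h := abs_norm_sub_norm_le (f (x * p) - f p) (f (x * q) - f q)
  refine h.trans ?_
  have e : f (x * p) - f p - (f (x * q) - f q) = (f (x * p) - f (x * q)) - (f p - f q) := by abel
  rw [e]
  refine (norm_sub_le _ _).trans ?_
  rw [hx]; linarith

variable (hM : 1 ≤ M) (hx : ∀ p q, ‖f (x * p) - f (x * q)‖ = ‖f p - f q‖)
  (hlog : ∀ (j : ℕ) (p : G), ‖f (x ^ (2 ^ j) * p) - f p‖ ^ 2 ≤ j + ‖f (x * p) - f p‖ ^ 2)

include hM hx hlog in
theorem nn_W (J : ℕ) (p q : G) :
    nn x f J (Wf x f M p - Wf x f M q) ≤ C0 * (6 * ‖f p - f q‖ / M) := by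
  have hC := one_le_C0
  have hM0 : (0 : ℝ) < M := by exact_mod_cast hM
  have hM1 : (1 : ℝ) ≤ M := by exact_mod_cast hM
  wlog hpq : tt x f q ≤ tt x f p generalizing p q with H
  · have h := H q p (le_of_not_ge hpq)
    rw [← nn_neg, neg_sub, norm_sub_rev] at h
    exact h
  by_cases ht : M < tt x f p
  · have h1 := nn_two hx hlog J p q (al M (tt x f p)) (al M (tt x f q)) (hM1.trans ht.le)
    refine h1.trans (mul_le_mul_of_nonneg_left ?_ (by linarith))
    exact al_var hM (tt_nonneg q) hpq ht (tt_lip hx p q)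
  · have h1 : Wf x f M p = 0 := by
      rw [Wf, al_low hM (not_lt.1 ht), Finsupp.single_zero]
    have h2 : Wf x f M q = 0 := by
      rw [Wf, al_low hM (hpq.trans (not_lt.1 ht)), Finsupp.single_zero]
    rw [h1, h2, sub_zero, nn_zero]
    positivity

include hM hx hlog in
theorem nn_W1 (J : ℕ) (p : G) : nn x f J (Wf x f M p) ≤ C0 := by
  have hC := one_le_C0
  have hM0 : (0 : ℝ) < M := by exact_mod_cast hM
  have hM1 : (1 : ℝ) ≤ M := by exact_mod_cast hM
  by_cases ht : M < tt x f p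
  · have h1 := nn_two hx hlog J p p (al M (tt x f p)) 0 (hM1.trans ht.le)
    rw [Finsupp.single_zero, sub_zero, sub_zero, abs_zero, zero_mul, mul_zero, add_zero] at h1
    refine h1.trans ?_
    have h2 : |al M (tt x f p)| * ‖f (x * p) - f p‖ ≤ 1 := by
      have h3 := al_mul hM ht
      have h4 : |al M (tt x f p)| * ‖f (x * p) - f p‖ = |Real.sin (ang M (tt x f p))| := by
        rw [← h3, abs_mul, abs_of_nonneg (tt_nonneg p)]
        rfl
      rw [h4]
      exact Real.abs_sin_le_one _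
    nlinarith
  · rw [Wf, al_low hM (not_lt.1 ht), Finsupp.single_zero, nn_zero]
    linarith

/-! #### the core part -/

include hM in
theorem Uf_zero {p : G} (hp : ¬ tt x f p < 3 * M) : Uf x f M u p = fun _ => 0 := by
  funext j
  rw [Uf, cos_top hM hp, Complex.ofReal_zero, zero_mul]

variable (hu1 : ∀ p, tt x f p < 3 * M → ∑ j, ‖u p j‖ ^ 2 = 1)

include hM hu1 in
theorem Uf_sq (p : G) : ∑ j, ‖Uf x f M u p j‖ ^ 2 = Real.cos (ang M (tt x f p)) ^ 2 := by
  by_cases hp : tt x f p < 3 * M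
  · have : ∀ j, ‖Uf x f M u p j‖ ^ 2 =
        Real.cos (ang M (tt x f p)) ^ 2 * ‖u p j‖ ^ 2 := by
      intro j
      rw [Uf, norm_mul, mul_pow, Complex.norm_real, Real.norm_eq_abs, sq_abs]
    simp only [this]
    rw [← Finset.mul_sum, hu1 p hp, mul_one]
  · rw [Uf_zero hM hp, cos_top hM hp]
    simp

include hM hu1 in
theorem en_Uf_le (p : G) : en (Uf x f M u p) ≤ 1 := by
  refine en_le_of_sq zero_le_one ?_
  rw [Uf_sq hM hu1, one_pow]
  exact (Real.cos_sq_le_one _)

include hM hu1 in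
theorem norm_Uf_le (p : G) (j : Fin n) : ‖Uf x f M u p j‖ ≤ 1 := by
  have h := Uf_sq hM hu1 p
  have h2 : ‖Uf x f M u p j‖ ^ 2 ≤ ∑ j, ‖Uf x f M u p j‖ ^ 2 :=
    Finset.single_le_sum (f := fun j => ‖Uf x f M u p j‖ ^ 2) (fun _ _ => sq_nonneg _)
      (Finset.mem_univ j)
  have h3 : ‖Uf x f M u p j‖ ^ 2 ≤ 1 := by
    rw [h] at h2
    exact h2.trans (Real.cos_sq_le_one _)
  have := norm_nonneg (Uf x f M u p j)
  nlinarith

include hM hu1 in
theorem BF_self (p : G) : BF x f φ (Vf x f M u p) (Vf x f M u p) = 1 := by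
  rw [BF_apply, SM_self, Uf_sq hM hu1, SF_self, al_sq hM, Real.cos_sq_add_sin_sq]

variable {D : Subgroup G} {ζ : G → Fin n → ℂ} (hD : D ≤ Cen x)
  (hζ : ∀ d ∈ D, ∀ j, ‖ζ d j‖ = 1)
  (hfD : ∀ d ∈ D, ∀ p q, ‖f (d * p) - f (d * q)‖ = ‖f p - f q‖)
  (hue : ∀ d ∈ D, ∀ p, tt x f p < 3 * M → ∀ j, u (d * p) j = ζ d j * u p j)

include hM hD hfD hue in
theorem Uf_mul {d : G} (hd : d ∈ D) (p : G) :
    Uf x f M u (d * p) = fun j => ζ d j * Uf x f M u p j := by
  have hc : d * x = x * d := (cen_comm (hD hd)).eq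
  have ht := tt_mul hc (hfD d hd) p
  by_cases hp : tt x f p < 3 * M
  · funext j
    rw [Uf, Uf, ht, hue d hd p hp]
    ring
  · rw [Uf_zero hM hp, Uf_zero hM (by rw [ht]; exact hp)]
    funext j
    rw [mul_zero]

include hM hD hζ hfD hue in
theorem BF_inv {d : G} (hd : d ∈ D) (p q : G) :
    BF x f φ (Vf x f M u (d * p)) (Vf x f M u (d * q)) =
      BF x f φ (Vf x f M u p) (Vf x f M u q) := by
  have hc : d * x = x * d := (cen_comm (hD hd)).eq
  rw [BF_apply, BF_apply, Uf_mul hM hD hfD hue hd, Uf_mul hM hD hfD hue hd,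
    SM_rotate φ _ _ _ (hζ d hd), tt_mul hc (hfD d hd), tt_mul hc (hfD d hd),
    SF_inv hc (hfD d hd)]

include hM hD hfD hue in
theorem BF_cyc (hxD : x ∈ D) (hφ : ∀ j, Real.sin (φ j / 2) ≠ 0)
    (hφζ : ∀ j, Complex.exp (φ j * Complex.I) = ζ x j) (p q : G) :
    BF x f φ (Vf x f M u q) (Vf x f M u (x * p)) = - BF x f φ (Vf x f M u p) (Vf x f M u q) := by
  rw [BF_apply, BF_apply, Uf_mul hM hD hfD hue hxD, SF_cyc (hfD x hxD),
    tt_mul rfl (hfD x hxD)]
  have h2 := SM_cyc φ hφ (Uf x f M u p) (Uf x f M u q)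
  simp only [hφζ] at h2
  rw [h2]
  ring

include hM hx hlog hu1 in
theorem BF_abs (hφ : ∀ j, 0 < Real.sin (φ j / 2)) (p q : G) :
    |BF x f φ (Vf x f M u p) (Vf x f M u q)| ≤ ∑ j, 1 / Real.sin (φ j / 2) + C0 * C0 := by
  rw [BF, dS_apply]
  refine (abs_add_le _ _).trans (add_le_add ?_ ?_)
  · refine (abs_SM_le φ hφ _ _).trans (Finset.sum_le_sum fun j _ => ?_)
    have h2 : ‖Uf x f M u p j‖ * ‖Uf x f M u q j‖ ≤ 1 :=
      mul_le_one₀ (norm_Uf_le hM hu1 p j) (norm_nonneg _) (norm_Uf_le hM hu1 q j)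
    exact mul_le_of_le_one_right (div_pos one_pos (hφ j)).le h2
  · have h := wk_SF_bound hx hlog [Wf x f M p, Wf x f M q] (fun _ => C0) (by
      intro v hv J
      simp only [List.mem_cons, List.not_mem_nil, or_false] at hv
      rcases hv with rfl | rfl
      · exact nn_W1 hM hx hlog J p
      · exact nn_W1 hM hx hlog J q)
    rw [wk_pair] at h
    have h' : |frS (SF x f) (Wf x f M p) (Wf x f M q)| ≤ C0 * C0 := by simpa using h
    exact h'

variable {S : Set G} {δ κ : ℝ} (hδ : 0 ≤ δ)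
  (hκ : ∀ s ∈ S, ∀ p, ‖f (p * s) - f p‖ ≤ κ)
  (hus : ∀ p, tt x f p < 3 * M → ∀ s ∈ S, tt x f (p * s) < 3 * M →
    ∑ j, ‖u (p * s) j - u p j‖ ^ 2 ≤ δ ^ 2)

include hM hx hu1 hδ hκ hus in
theorem Uf_step (p : G) {s : G} (hs : s ∈ S) :
    en (fun j => Uf x f M u (p * s) j - Uf x f M u p j) ≤ δ + 2 * κ / M := by
  have hM0 : (0 : ℝ) < M := by exact_mod_cast hM
  have hc2 : |Real.cos (ang M (tt x f (p * s))) - Real.cos (ang M (tt x f p))| ≤ 2 * κ / M := by
    refine (cos_ang_lip hM _ _).trans ?_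
    have h1 := tt_lip hx (p * s) p
    have h2 := hκ s hs p
    gcongr
    linarith
  by_cases hp : tt x f p < 3 * M
  · by_cases hps : tt x f (p * s) < 3 * M
    · have e1 : (fun j => Uf x f M u (p * s) j - Uf x f M u p j) = fun j =>
          (((Real.cos (ang M (tt x f (p * s))) -
            Real.cos (ang M (tt x f p)) : ℝ) : ℂ) * u (p * s) j) +
          ((Real.cos (ang M (tt x f p)) : ℂ) * (u (p * s) j - u p j)) := by
        funext j
        rw [Uf, Uf, Complex.ofReal_sub]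
        ring
      rw [e1]
      refine (en_add _ _).trans ?_
      rw [en_smul, en_smul (Real.cos (ang M (tt x f p)) : ℂ)
        (fun j => u (p * s) j - u p j), Complex.norm_real, Complex.norm_real, Real.norm_eq_abs,
        Real.norm_eq_abs]
      have h2 : en (u (p * s)) ≤ 1 := en_le_of_sq zero_le_one (by rw [hu1 _ hps, one_pow])
      have h3 : en (fun j => u (p * s) j - u p j) ≤ δ :=
        en_le_of_sq hδ (hus p hp s hs hps)
      have h4 : |Real.cos (ang M (tt x f p))| ≤ 1 := Real.abs_cos_le_one _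
      have h5 := en_nonneg (u (p * s))
      have h6 := en_nonneg fun j => u (p * s) j - u p j
      have h7 := mul_le_mul hc2 h2 h5 ((abs_nonneg _).trans hc2)
      have h8 := mul_le_mul h4 h3 h6 zero_le_one
      linarith
    · rw [Uf_zero hM hps]
      have e1 : (fun j => (fun _ : Fin n => (0 : ℂ)) j - Uf x f M u p j) =
          fun j => - Uf x f M u p j := by
        funext j; ring
      rw [e1, en_neg]
      have h2 : en (Uf x f M u p) ≤ |Real.cos (ang M (tt x f p))| :=
        en_le_of_sq (abs_nonneg _) (by rw [Uf_sq hM hu1, sq_abs])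
      rw [cos_top hM hps, zero_sub, abs_neg] at hc2
      linarith
  · rw [Uf_zero hM hp]
    have e1 : (fun j => Uf x f M u (p * s) j - (fun _ : Fin n => (0 : ℂ)) j) =
        Uf x f M u (p * s) := by
      funext j; ring
    rw [e1]
    have h2 : en (Uf x f M u (p * s)) ≤ |Real.cos (ang M (tt x f (p * s)))| :=
      en_le_of_sq (abs_nonneg _) (by rw [Uf_sq hM hu1, sq_abs])
    rw [cos_top hM hp, sub_zero] at hc2
    linarith

include hM hx hu1 hδ hκ hus in
theorem Uf_lip {X : ℝ} (hX : δ + 2 * κ / M ≤ X) (hX0 : 0 ≤ X) {R : ℕ} (hR : 2 ≤ X * R) (p h : G) :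
    en (fun j => Uf x f M u (p * h) j - Uf x f M u p j) ≤ X * H174.len S R h := by
  by_cases hh : H174.Gen S h
  · rw [H174.len_of_gen hh]
    have key : ∀ (m : ℕ) (h : G), h ∈ S ^ m →
        en (fun j => Uf x f M u (p * h) j - Uf x f M u p j) ≤ X * m := by
      intro m
      induction m with
      | zero =>
        intro h hh
        rw [pow_zero] at hh
        rw [Set.mem_one.1 hh, mul_one]
        simp only [sub_self]
        rw [en_zero]
        simp
      | succ m ih =>
        intro h hh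
        rw [pow_succ] at hh
        obtain ⟨a, ha, s, hs, rfl⟩ := Set.mem_mul.1 hh
        have h2 := ih a ha
        have h3 := Uf_step hM hx hu1 hδ hκ hus (p * a) hs
        rw [mul_assoc] at h3
        refine (en_sub_tri _ (Uf x f M u (p * a)) _).trans ((add_le_add (h3.trans hX) h2).trans
          (le_of_eq ?_))
        push_cast
        ring
    exact key _ h (H174.mem_pow_wl hh)
  · rw [H174.len_of_not hh]
    have h2 := en_Uf_le hM hu1 (p * h)
    have h3 := en_Uf_le hM hu1 p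
    refine (en_sub_le _ _).trans ?_
    linarith

include hM hx hlog hκ in
theorem Wf_lip {X : ℝ} (hX : C0 * (6 * κ / M) ≤ X) (hX0 : 0 ≤ X) {R : ℕ} (hR : 2 * C0 ≤ X * R)
    (J : ℕ) (p h : G) :
    nn x f J (Wf x f M (p * h) - Wf x f M p) ≤ X * H174.len S R h := by
  have hM0 : (0 : ℝ) < M := by exact_mod_cast hM
  have hC := one_le_C0
  by_cases hh : H174.Gen S h
  · rw [H174.len_of_gen hh]
    have key : ∀ (m : ℕ) (h : G), h ∈ S ^ m →
        nn x f J (Wf x f M (p * h) - Wf x f M p) ≤ X * m := by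
      intro m
      induction m with
      | zero =>
        intro h hh
        rw [pow_zero] at hh
        rw [Set.mem_one.1 hh, mul_one, sub_self, nn_zero]
        simp
      | succ m ih =>
        intro h hh
        rw [pow_succ] at hh
        obtain ⟨a, ha, s, hs, rfl⟩ := Set.mem_mul.1 hh
        have h2 := ih a ha
        have h3 := nn_W hM hx hlog J (p * a * s) (p * a)
        have h4 : C0 * (6 * ‖f (p * a * s) - f (p * a)‖ / M) ≤ C0 * (6 * κ / M) := by
          have := hκ s hs (p * a)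
          gcongr
        rw [mul_assoc] at h3
        have e : Wf x f M (p * (a * s)) - Wf x f M p =
            (Wf x f M (p * (a * s)) - Wf x f M (p * a)) + (Wf x f M (p * a) - Wf x f M p) := by
          abel
        rw [e]
        refine (nn_add _ _ _ _ _).trans ?_
        push_cast
        rw [mul_assoc] at h4
        linarith
    exact key _ h (H174.mem_pow_wl hh)
  · rw [H174.len_of_not hh, sub_eq_add_neg]
    refine (nn_add _ _ _ _ _).trans ?_
    rw [nn_neg]
    have h2 := nn_W1 hM hx hlog J (p * h)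
    have h3 := nn_W1 hM hx hlog J p
    linarith

include hM hx hlog in
/-- the bound of the words of differences -/
theorem flat_V (hφ : ∀ j, 0 < Real.sin (φ j / 2)) (v : G × G → G × G) (g : G × G → ℝ)
    (hg : ∀ z, 0 ≤ g z) {X : ℝ} (hX0 : 0 ≤ X) (L : List (G × G))
    (hU : ∀ z, en (fun j => Uf x f M u (v z).1 j - Uf x f M u (v z).2 j) ≤ X * g z)
    (hW : ∀ z, ∀ J, nn x f J (Wf x f M (v z).1 - Wf x f M (v z).2) ≤ X * g z) :
    |wk (fun a b => BF x f φ a b) (L.map fun z => Vf x f M u (v z).1 - Vf x f M u (v z).2)| ≤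
      (∏ j, 1 / Real.sin (φ j / 2)) * (2 * X) ^ L.length * (L.map g).prod := by
  have hP0 : 0 ≤ ∏ j : Fin n, 1 / Real.sin (φ j / 2) :=
    Finset.prod_nonneg fun j _ => (div_pos one_pos (hφ _)).le
  set uu : Fin L.length → Fin n → ℂ := fun i =>
    fun j => Uf x f M u (v (L.get i)).1 j - Uf x f M u (v (L.get i)).2 j with huu
  set ww : Fin L.length → G →₀ ℝ := fun i =>
    Wf x f M (v (L.get i)).1 - Wf x f M (v (L.get i)).2 with hww
  have h := wk_dsum_bound (SM φ) (frS (SF x f)) uu ww (fun i => X * g (L.get i))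
    (fun i => X * g (L.get i)) (fun i => mul_nonneg hX0 (hg _)) (fun i => mul_nonneg hX0 (hg _))
    (∏ j, 1 / Real.sin (φ j / 2)) 1 hP0 zero_le_one (fun l _ => by
      refine (wk_SM_bound φ hφ _).trans ?_
      rw [List.map_map]
      refine mul_le_mul_of_nonneg_left ?_ hP0
      exact prod_map_mono (fun i => en_nonneg _) l fun i _ => hU (L.get i))
    (fun l _ => by
      rw [one_mul]
      exact wk_SF_bound' hx hlog ww (fun i => X * g (L.get i)) l fun i _ J => hW (L.get i) J)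
  have e1 : (List.ofFn fun i : Fin L.length => (uu i, ww i)) =
      L.map fun z => Vf x f M u (v z).1 - Vf x f M u (v z).2 := by
    apply List.ext_getElem
    · simp
    · intro m h1 h2
      simp only [huu, hww, List.getElem_ofFn, List.getElem_map, List.get_eq_getElem]
      rfl
  have e2 : ∏ i : Fin L.length, (X * g (L.get i) + X * g (L.get i)) =
      (2 * X) ^ L.length * (L.map g).prod := by
    have e3 : ∀ i : Fin L.length, X * g (L.get i) + X * g (L.get i) = (2 * X) * g (L.get i) :=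
      fun i => by ring
    have e4 : (L.map g).prod = ∏ i : Fin L.length, g (L.get i) := by
      rw [← List.prod_ofFn]
      congr 1
      apply List.ext_getElem
      · simp
      · intro m h1 h2
        simp
    rw [Finset.prod_congr rfl fun i _ => e3 i, Finset.prod_mul_distrib, Finset.prod_const,
      Finset.card_univ, Fintype.card_fin, e4]
  rw [e1, e2, mul_one] at h
  rw [mul_assoc]
  exact h

include hM hx hlog hu1 hD hζ hfD hue hδ hκ hus in
/-- The bound of the traces obtained from one field. -/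
theorem tau_le (hxD : x ∈ D) (hm : CoAmenable (Cen x) D)
    (hφ : ∀ j, 0 < Real.sin (φ j / 2))
    (hφζ : ∀ j, Complex.exp (φ j * Complex.I) = ζ x j)
    (hS : ∀ s ∈ S, s⁻¹ ∈ S) {X : ℝ} (hX1 : δ + 2 * κ / M ≤ X) (hX2 : C0 * (6 * κ / M) ≤ X)
    (hX0 : 0 ≤ X) {R : ℕ} (hR1 : 2 ≤ X * R) (hR2 : 2 * C0 ≤ X * R)
    {q : ℕ} (e : Mat G q) (he : IsIdem e)
    (he1 : ∀ i j, Summable fun g => ‖e i j g‖ * H174.len S R g) (k : ℕ) :
    ‖tau (ConjClasses.mk x) e‖ ≤ ((∏ j, 1 / Real.sin (φ j / 2)) * (2 * X) ^ (2 * k)) *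
      (∑ i, ∑ j, ∑' g, ‖e i j g‖) ^ (k + 1) *
      (∑ i, ∑ j, ∑' g, ‖e i j g‖ * H174.len S R g) ^ (2 * k) := by
  obtain ⟨P, hPv, hP⟩ := mean_pf (BF x f φ) (Vf x f M u) x D hxD hD hm
    (fun p => BF_self hM hu1 p)
    (fun p q => BF_cyc hM hD hfD hue hxD (fun j => (hφ j).ne') hφζ p q)
    (fun d hd p q => BF_inv hM hD hζ hfD hue hd p q) _
    (fun p q => BF_abs hM hx hlog hu1 hφ p q)
  have hinv : ∀ p q : G, H174.len S R (q⁻¹ * p) = H174.len S R (p⁻¹ * q) := fun p q => by
    rw [← H174.len_inv hS, mul_inv_rev, inv_inv]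
  have hP0 : 0 ≤ ∏ j : Fin n, 1 / Real.sin (φ j / 2) :=
    Finset.prod_nonneg fun j _ => (div_pos one_pos (hφ _)).le
  refine P.bound e he (H174.len S R) (fun g => H174.len_nonneg _) he1 k
    ((∏ j, 1 / Real.sin (φ j / 2)) * (2 * X) ^ (2 * k))
    (mul_nonneg hP0 (by positivity)) fun T hT => ?_
  have e1 : (T.flatMap fun t => [P.v t.1 - P.v t.2.1, P.v t.2.1 - P.v t.2.2]) =
      (T.flatMap fun t => [(t.1, t.2.1), (t.2.1, t.2.2)]).map
        fun z : G × G => P.v z.1 - P.v z.2 := by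
    rw [flat_map]
  have e2 := flat_prod T (fun t => (t.1, t.2.1)) (fun t => (t.2.1, t.2.2))
    (fun z : G × G => H174.len S R (z.1⁻¹ * z.2))
  rw [e1, ← e2]
  refine hP _ _ fun c _ => ?_
  have hb := flat_V (u := u) hM hx hlog hφ (fun z : G × G => (c * z.1, c * z.2))
    (fun z : G × G => H174.len S R (z.1⁻¹ * z.2)) (fun z => H174.len_nonneg _) hX0
    (T.flatMap fun t => [(t.1, t.2.1), (t.2.1, t.2.2)])
    (fun z => by
      have h2 := Uf_lip hM hx hu1 hδ hκ hus hX1 hX0 hR1 (c * z.2) (z.2⁻¹ * z.1)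
      rw [mul_assoc, mul_inv_cancel_left, hinv] at h2
      exact h2)
    (fun z J => by
      have h2 := Wf_lip hM hx hlog hκ hX2 hX0 hR2 J (c * z.2) (z.2⁻¹ * z.1)
      rw [mul_assoc, mul_inv_cancel_left, hinv] at h2
      exact h2)
  rw [flat_length, hT] at hb
  exact hb

end Field

/-- **The analytic theorem.** -/
theorem data : DataStmt.{u, w} := by
  intro G _ q e he
  obtain ⟨S, f, -, h1, hS, hf, htau, hf0, hf1⟩ := H250.exists_decay_moment e he ∅
  refine ⟨S, h1, hS, fun κ => ?_⟩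
  set N0 : ℝ := ∑ i, ∑ j, ∑' g, ‖f i j g‖ with hN0
  set N1 : ℝ := ∑ i, ∑ j, ∑' g, ‖f i j g‖ * (H250.wl S g : ℝ) with hN1
  have hN00 : 0 ≤ N0 := Finset.sum_nonneg fun i _ => Finset.sum_nonneg fun j _ =>
    tsum_nonneg fun g => norm_nonneg _
  have hN10 : 0 ≤ N1 := Finset.sum_nonneg fun i _ => Finset.sum_nonneg fun j _ =>
    tsum_nonneg fun g => by positivity
  set A : ℝ := N0 * N1 ^ 2 + 1 with hA
  have hA1 : 1 ≤ A := by
    rw [hA]
    have : 0 ≤ N0 * N1 ^ 2 := by positivity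
    linarith
  set δ : ℝ := 1 / (8 * A) with hδ
  have hδ0 : 0 < δ := by positivity
  have hC := one_le_C0
  set M : ℕ := ⌈8 * C0 * |κ| / δ⌉₊ + 1 with hM
  have hM1 : 1 ≤ M := by omega
  have hM0 : (0 : ℝ) < M := by exact_mod_cast hM1
  have hMδ : 8 * C0 * |κ| / M ≤ δ := by
    rw [div_le_iff₀ hM0]
    have h2 : 8 * C0 * |κ| / δ ≤ M := by
      rw [hM]
      push_cast
      have := Nat.le_ceil (8 * C0 * |κ| / δ)
      linarith
    rw [div_le_iff₀ hδ0] at h2
    linarith
  refine ⟨δ, hδ0, M, fun x hx => ?_⟩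
  obtain ⟨D, n, ζ, u, E, _, _, F, hxD, hD, hm, hζ, hζx, hfD, hlog, hκ, hue, hu1, hus⟩ := hx
  rw [← htau, ← norm_le_zero_iff]
  choose! φ hφ hφζ hφc using fun j => exists_phase (hζ x hxD j) (hζx j)
  set X : ℝ := 2 * δ with hX
  have hX1 : δ + 2 * κ / M ≤ X := by
    have h2 : 2 * κ / (M : ℝ) ≤ 8 * C0 * |κ| / M := by
      refine div_le_div_of_nonneg_right ?_ hM0.le
      have := le_abs_self κ
      have := abs_nonneg κ
      nlinarith
    linarith
  have hX2 : C0 * (6 * κ / M) ≤ X := by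
    have h2 : C0 * (6 * κ / (M : ℝ)) ≤ 8 * C0 * |κ| / M := by
      rw [← mul_div_assoc]
      refine div_le_div_of_nonneg_right ?_ hM0.le
      have h3 := le_abs_self κ
      have h4 := abs_nonneg κ
      have h5 : C0 * κ ≤ C0 * |κ| := mul_le_mul_of_nonneg_left h3 (by linarith)
      have h6 : 0 ≤ C0 * |κ| := by positivity
      nlinarith
    linarith
  obtain ⟨R, hR⟩ := exists_nat_ge (2 * C0 / X)
  have hX0 : 0 < X := by positivity
  have hR2 : 2 * C0 ≤ X * R := by
    rw [div_le_iff₀ hX0] at hR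
    linarith
  have hlen : ∀ i j g, ‖f i j g‖ * H174.len (S : Set G) R g = ‖f i j g‖ * (H250.wl S g : ℝ) := by
    intro i j g
    by_cases hg : ∃ n, H250.IsWd S n g
    · rw [H174.len_of_gen (H250.gen_iff.2 hg), H250.wl_eq hg]
    · rw [hf0 i j g hg, norm_zero, zero_mul, zero_mul]
  have hb : ∀ k : ℕ, ‖tau (ConjClasses.mk x) f‖ ≤
      (∏ j, 1 / Real.sin (φ j / 2)) * N0 * (1 / 4 : ℝ) ^ k := by
    intro k
    have hb := tau_le (S := (S : Set G)) (M := M) (φ := φ) (u := u) (D := D) (ζ := ζ) (x := x)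
      (f := F) (κ := κ) (δ := δ) hM1 (hfD x hxD) hlog hu1 hD hζ hfD hue hδ0.le
      (fun s hs => hκ s (by exact_mod_cast hs))
      (fun p hp s hs hps => hus p hp s (by exact_mod_cast hs) hps) hxD hm hφ hφζ
      (fun s hs => by exact_mod_cast hS s hs) hX1 hX2 hX0.le (R := R) (by linarith) hR2 f hf
      (fun i j => by simpa only [hlen] using hf1 i j) k
    simp only [hlen] at hb
    rw [← hN0, ← hN1] at hb
    refine hb.trans ?_
    have hP0 : 0 ≤ ∏ j : Fin n, 1 / Real.sin (φ j / 2) :=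
      Finset.prod_nonneg fun j _ => (div_pos one_pos (hφ _)).le
    have hstep : N0 * N1 ^ 2 * (2 * X) ^ 2 ≤ 1 / 4 := by
      have h3 : N0 * N1 ^ 2 ≤ A := by rw [hA]; linarith
      have h4 : (2 * X) ^ 2 = 1 / (4 * A ^ 2) := by
        rw [hX, hδ]
        field_simp
        ring
      rw [h4]
      calc N0 * N1 ^ 2 * (1 / (4 * A ^ 2)) ≤ A * (1 / (4 * A ^ 2)) := by gcongr
        _ = 1 / (4 * A) := by field_simp
        _ ≤ 1 / 4 := by
          apply one_div_le_one_div_of_le (by norm_num)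
          linarith
    calc (∏ j, 1 / Real.sin (φ j / 2)) * (2 * X) ^ (2 * k) * N0 ^ (k + 1) * N1 ^ (2 * k)
        = (∏ j, 1 / Real.sin (φ j / 2)) * N0 * (N0 * N1 ^ 2 * (2 * X) ^ 2) ^ k := by
          rw [pow_succ N0 k, pow_mul N1 2 k, pow_mul (2 * X) 2 k, mul_pow, mul_pow]
          ring_nf
      _ ≤ _ := by
          refine mul_le_mul_of_nonneg_left ?_ (mul_nonneg hP0 hN00)
          exact pow_le_pow_left₀ (by positivity) hstep k
  have ht : Tendsto (fun k : ℕ => (∏ j, 1 / Real.sin (φ j / 2)) * N0 * (1 / 4 : ℝ) ^ k) atTop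
      (𝓝 ((∏ j, 1 / Real.sin (φ j / 2)) * N0 * 0)) :=
    (tendsto_pow_atTop_nhds_zero_of_lt_one (by norm_num) (by norm_num)).const_mul _
  rw [mul_zero] at ht
  exact ge_of_tendsto' ht hb

end Vale.Agent.P184.H70
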