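import Vale.Agent.P184.H70.WB
import Vale.Agent.P184.H38.Mean

set_option linter.all false

/-! The kernel `‖f (x p) - f q‖² - ‖f p - f q‖²`, and its dyadic decomposition. -/

noncomputable section

namespace Vale.Agent.P184.H70

open Vale.Agent.P184.H38 Filter
open scoped InnerProductSpace Topology

section dy

variable {G : Type*} [Group G] {E : Type*} [NormedAddCommGroup E] [InnerProductSpace ℝ E]

/-- the kernel -/
def SF (x : G) (f : G → E) (p q : G) : ℝ := ‖f (x * p) - f q‖ ^ 2 - ‖f p - f q‖ ^ 2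

/-- the displacement -/
def dsp (f : G → E) (g p : G) : E := f (g * p) - f p

/-- the second factor -/
def zz (f : G → E) (g p : G) : E := (1 / 2 : ℝ) • (dsp f g (g * p) - dsp f g (g⁻¹ * p))

/-- the antisymmetric kernel -/
def DD (f : G → E) (g p q : G) : ℝ := 1 / 2 * (‖f (g * p) - f q‖ ^ 2 - ‖f p - f (g * q)‖ ^ 2)

theorem inner_pol (a b c d : E) : ⟪a - b, c - d⟫_ℝ =
    1 / 2 * (‖a - d‖ ^ 2 + ‖b - c‖ ^ 2 - ‖a - c‖ ^ 2 - ‖b - d‖ ^ 2) := by
  simp only [← real_inner_self_eq_norm_sq, inner_sub_left, inner_sub_right]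
  rw [real_inner_comm a d, real_inner_comm b c, real_inner_comm a c, real_inner_comm b d]
  ring

variable {f : G → E}

theorem SF_eq {x : G} (hx : ∀ p q, ‖f (x * p) - f (x * q)‖ = ‖f p - f q‖) (p q : G) :
    SF x f p q = ⟪dsp f x p, dsp f x q⟫_ℝ + DD f x p q := by
  rw [SF, DD, dsp, dsp, inner_pol, hx p q]
  ring

theorem DD_step {g : G} (hg : ∀ p q, ‖f (g * p) - f (g * q)‖ = ‖f p - f q‖) (p q : G) :
    DD f g p q = ⟪dsp f g p, zz f g q⟫_ℝ + 1 / 2 * DD f (g * g) p q := by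
  have h1 := inner_pol (f (g * p)) (f p) (f (g * (g * q))) (f (g * q))
  have h2 := inner_pol (f (g * p)) (f p) (f (g * (g⁻¹ * q))) (f (g⁻¹ * q))
  rw [zz, inner_smul_right, inner_sub_right, dsp, dsp, dsp, h1, h2, DD, DD]
  have e1 := hg p q
  have e2 := hg p (g * q)
  have e3 : ‖f p - f (g⁻¹ * q)‖ = ‖f (g * p) - f q‖ := by
    rw [← hg p (g⁻¹ * q), mul_inv_cancel_left]
  have e4 : ‖f (g * p) - f (g⁻¹ * q)‖ = ‖f (g * (g * p)) - f q‖ := by
    rw [← hg (g * p) (g⁻¹ * q), mul_inv_cancel_left]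
  have e5 : ‖f (g * q) - f (g * q)‖ = 0 := by simp
  rw [mul_inv_cancel_left, e1, e2, e3, e4, mul_assoc, mul_assoc]
  ring

/-- the truncated kernel -/
theorem DD_dyadic {x : G} (hx : ∀ p q, ‖f (x * p) - f (x * q)‖ = ‖f p - f q‖) (J : ℕ) (p q : G) :
    DD f x p q = ∑ j ∈ Finset.range J, (1 / 2 : ℝ) ^ j *
      ⟪dsp f (x ^ 2 ^ j) p, zz f (x ^ 2 ^ j) q⟫_ℝ + (1 / 2) ^ J * DD f (x ^ 2 ^ J) p q := by
  induction J with
  | zero => simp
  | succ J ih =>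
      rw [ih, Finset.sum_range_succ, DD_step (g := x ^ 2 ^ J)]
      · rw [← pow_add, ← two_mul, ← pow_succ', pow_succ (1 / 2 : ℝ)]
        ring
      · intro p q
        generalize 2 ^ J = n
        induction n generalizing p q with
        | zero => simp
        | succ n ihn => rw [pow_succ, mul_assoc, mul_assoc, ihn, hx]

theorem hinv_pow {x : G} (hx : ∀ p q, ‖f (x * p) - f (x * q)‖ = ‖f p - f q‖) (n : ℕ) (p q : G) :
    ‖f (x ^ n * p) - f (x ^ n * q)‖ = ‖f p - f q‖ := by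
  induction n generalizing p q with
  | zero => simp
  | succ n ihn => rw [pow_succ, mul_assoc, mul_assoc, ihn, hx]

theorem hinv_inv {g : G} (hg : ∀ p q, ‖f (g * p) - f (g * q)‖ = ‖f p - f q‖) (p q : G) :
    ‖f (g⁻¹ * p) - f (g⁻¹ * q)‖ = ‖f p - f q‖ := by
  rw [← hg (g⁻¹ * p), mul_inv_cancel_left, mul_inv_cancel_left]

theorem norm_dsp_g {g : G} (hg : ∀ p q, ‖f (g * p) - f (g * q)‖ = ‖f p - f q‖) (p : G) :
    ‖dsp f g (g * p)‖ = ‖dsp f g p‖ := hg _ _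

theorem norm_dsp_ginv {g : G} (hg : ∀ p q, ‖f (g * p) - f (g * q)‖ = ‖f p - f q‖) (p : G) :
    ‖dsp f g (g⁻¹ * p)‖ = ‖dsp f g p‖ := by
  have := norm_dsp_g hg (g⁻¹ * p)
  rw [mul_inv_cancel_left] at this
  exact this.symm

theorem norm_dsp_sub {g : G} (hg : ∀ p q, ‖f (g * p) - f (g * q)‖ = ‖f p - f q‖) (p q : G) :
    ‖dsp f g p - dsp f g q‖ ≤ 2 * ‖f p - f q‖ := by
  have h : dsp f g p - dsp f g q = (f (g * p) - f (g * q)) - (f p - f q) := by
    unfold dsp; abel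
  rw [h]
  refine (norm_sub_le _ _).trans ?_
  rw [hg]; linarith

theorem norm_zz {g : G} (hg : ∀ p q, ‖f (g * p) - f (g * q)‖ = ‖f p - f q‖) (p : G) :
    ‖zz f g p‖ ≤ ‖dsp f g p‖ := by
  rw [zz, norm_smul]
  have h := norm_sub_le (dsp f g (g * p)) (dsp f g (g⁻¹ * p))
  rw [norm_dsp_g hg, norm_dsp_ginv hg] at h
  rw [Real.norm_eq_abs, abs_of_pos (by norm_num : (0 : ℝ) < 1 / 2)]
  linarith

theorem norm_zz_sub {g : G} (hg : ∀ p q, ‖f (g * p) - f (g * q)‖ = ‖f p - f q‖) (p q : G) :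
    ‖zz f g p - zz f g q‖ ≤ 2 * ‖f p - f q‖ := by
  have h : zz f g p - zz f g q = (1 / 2 : ℝ) • ((dsp f g (g * p) - dsp f g (g * q)) -
      (dsp f g (g⁻¹ * p) - dsp f g (g⁻¹ * q))) := by
    rw [zz, zz, ← smul_sub]
    congr 1
    abel
  rw [h, norm_smul, Real.norm_eq_abs, abs_of_pos (by norm_num : (0 : ℝ) < 1 / 2)]
  have h1 := norm_sub_le (dsp f g (g * p) - dsp f g (g * q)) (dsp f g (g⁻¹ * p) - dsp f g (g⁻¹ * q))
  have h2 := norm_dsp_sub hg (g * p) (g * q)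
  have h3 := norm_dsp_sub hg (g⁻¹ * p) (g⁻¹ * q)
  rw [hg] at h2
  rw [hinv_inv hg] at h3
  linarith

/-! ### linear extension -/

theorem inner_lf (A B : G → E) (v w : G →₀ ℝ) :
    ⟪lf A v, lf B w⟫_ℝ = frS (fun p q => ⟪A p, B q⟫_ℝ) v w := by
  rw [frS_apply]
  simp only [lf, Finsupp.lift_apply, Finsupp.sum, sum_inner, inner_sum, inner_smul_left,
    inner_smul_right]
  rw [Finset.sum_comm]
  refine Finset.sum_congr rfl fun p _ => ?_
  rw [Finset.mul_sum]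
  refine Finset.sum_congr rfl fun q _ => ?_
  simp only [RCLike.conj_to_real]
  ring

/-- the truncated form -/
def SJ (x : G) (f : G → E) (J : ℕ) (v w : G →₀ ℝ) : ℝ :=
  ⟪lf (dsp f x) v, lf (dsp f x) w⟫_ℝ + ∑ j ∈ Finset.range J, (1 / 2 : ℝ) ^ j *
    ⟪lf (dsp f (x ^ 2 ^ j)) v, lf (zz f (x ^ 2 ^ j)) w⟫_ℝ

/-- the bound of the truncated form -/
def nn (x : G) (f : G → E) (J : ℕ) (v : G →₀ ℝ) : ℝ :=
  ‖lf (dsp f x) v‖ + ∑ j ∈ Finset.range J, √((1 / 2 : ℝ) ^ j) *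
    (4 * (‖lf (dsp f (x ^ 2 ^ j)) v‖ + ‖lf (zz f (x ^ 2 ^ j)) v‖))

theorem WB_SJ (x : G) (f : G → E) (J : ℕ) : WB (SJ x f J) (nn x f J) := by
  induction J with
  | zero =>
      refine ((WB_sym (lf (dsp f x))).congr fun v w => ?_).mono fun v => ?_
      · simp [SJ]
      · simp [nn]
  | succ J ih =>
      have h := ih.add ((WB_inner (lf (dsp f (x ^ 2 ^ J))) (lf (zz f (x ^ 2 ^ J)))).smul
        ((1 / 2 : ℝ) ^ J) (√((1 / 2 : ℝ) ^ J)) (Real.sqrt_nonneg _) (by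
          rw [Real.sq_sqrt (by positivity), abs_of_pos (by positivity)]))
      refine (h.congr fun v w => ?_).mono fun v => ?_
      · rw [SJ, SJ, Finset.sum_range_succ]; ring
      · rw [nn, nn, Finset.sum_range_succ]; linarith

theorem frS_SJ {x : G} (hx : ∀ p q, ‖f (x * p) - f (x * q)‖ = ‖f p - f q‖) (J : ℕ)
    (v w : G →₀ ℝ) : frS (SF x f) v w =
      SJ x f J v w + (1 / 2) ^ J * frS (DD f (x ^ 2 ^ J)) v w := by
  have h : ∀ (a b : ℝ), 0 = 0 := fun _ _ => rfl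
  rw [SJ, inner_lf]
  simp only [inner_lf]
  simp only [frS_apply, Finsupp.sum]
  rw [Finset.mul_sum]
  simp only [Finset.mul_sum]
  rw [Finset.sum_comm (s := Finset.range J)]
  rw [← Finset.sum_add_distrib, ← Finset.sum_add_distrib]
  refine Finset.sum_congr rfl fun p _ => ?_
  rw [Finset.sum_comm (s := Finset.range J), ← Finset.sum_add_distrib, ← Finset.sum_add_distrib]
  refine Finset.sum_congr rfl fun q _ => ?_
  rw [SF_eq hx, DD_dyadic hx J]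
  rw [mul_add, mul_add, Finset.mul_sum, ← add_assoc]
  congr 1
  · congr 1
    exact Finset.sum_congr rfl fun j _ => by ring
  · ring

theorem tendsto_DD {x : G} (hx : ∀ p q, ‖f (x * p) - f (x * q)‖ = ‖f p - f q‖)
    (hlog : ∀ (j : ℕ) (p : G), ‖f (x ^ (2 ^ j) * p) - f p‖ ^ 2 ≤ j + ‖f (x * p) - f p‖ ^ 2)
    (p q : G) : Tendsto (fun J : ℕ => (1 / 2 : ℝ) ^ J * DD f (x ^ 2 ^ J) p q) atTop (𝓝 0) := by
  set c : ℝ := 2 * ‖f (x * p) - f p‖ ^ 2 + 2 * ‖f (x * q) - f q‖ ^ 2 + 4 * ‖f p - f q‖ ^ 2 with hc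
  have hb : ∀ J : ℕ, |(1 / 2 : ℝ) ^ J * DD f (x ^ 2 ^ J) p q| ≤
      4 * (J * (1 / 2 : ℝ) ^ J) + c * (1 / 2 : ℝ) ^ J := by
    intro J
    have h1 := hlog J p
    have h2 := hlog J q
    have h3 : ‖f (x ^ 2 ^ J * p) - f q‖ ^ 2 ≤
        2 * ‖f (x ^ 2 ^ J * p) - f p‖ ^ 2 + 2 * ‖f p - f q‖ ^ 2 := by
      have h := norm_add_le (f (x ^ 2 ^ J * p) - f p) (f p - f q)
      rw [sub_add_sub_cancel] at h
      have h' := norm_nonneg (f (x ^ 2 ^ J * p) - f q)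
      nlinarith [sq_nonneg (‖f (x ^ 2 ^ J * p) - f p‖ - ‖f p - f q‖)]
    have h4 : ‖f p - f (x ^ 2 ^ J * q)‖ ^ 2 ≤
        2 * ‖f (x ^ 2 ^ J * q) - f q‖ ^ 2 + 2 * ‖f p - f q‖ ^ 2 := by
      have h := norm_add_le (f p - f q) (f q - f (x ^ 2 ^ J * q))
      rw [sub_add_sub_cancel, norm_sub_rev (f q)] at h
      have h' := norm_nonneg (f p - f (x ^ 2 ^ J * q))
      nlinarith [sq_nonneg (‖f (x ^ 2 ^ J * q) - f q‖ - ‖f p - f q‖)]
    have h5 : |DD f (x ^ 2 ^ J) p q| ≤ 4 * J + c := by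
      rw [DD, abs_le]
      have h6 := sq_nonneg ‖f (x ^ 2 ^ J * p) - f q‖
      have h7 := sq_nonneg ‖f p - f (x ^ 2 ^ J * q)‖
      have h8 : (0 : ℝ) ≤ J := Nat.cast_nonneg J
      have h9 := sq_nonneg ‖f (x * p) - f p‖
      have h10 := sq_nonneg ‖f (x * q) - f q‖
      have h11 := sq_nonneg ‖f p - f q‖
      constructor
      · rw [hc]; linarith
      · rw [hc]; linarith
    rw [abs_mul, abs_of_pos (by positivity : (0 : ℝ) < (1 / 2) ^ J)]
    have h12 : (0 : ℝ) < (1 / 2) ^ J := by positivity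
    nlinarith
  have ht : Tendsto (fun J : ℕ => 4 * (J * (1 / 2 : ℝ) ^ J) + c * (1 / 2 : ℝ) ^ J) atTop (𝓝 0) := by
    have h1 := tendsto_self_mul_const_pow_of_lt_one (r := (1 / 2 : ℝ)) (by norm_num) (by norm_num)
    have h2 := tendsto_pow_atTop_nhds_zero_of_lt_one (r := (1 / 2 : ℝ)) (by norm_num) (by norm_num)
    simpa using (h1.const_mul 4).add (h2.const_mul c)
  exact squeeze_zero_norm (fun J => by rw [Real.norm_eq_abs]; exact hb J) ht

/-- **The product bound for the kernel.** -/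
theorem wk_SF_bound' {x : G} (hx : ∀ p q, ‖f (x * p) - f (x * q)‖ = ‖f p - f q‖)
    (hlog : ∀ (j : ℕ) (p : G), ‖f (x ^ (2 ^ j) * p) - f p‖ ^ 2 ≤ j + ‖f (x * p) - f p‖ ^ 2)
    {X : Type*} (w : X → G →₀ ℝ) (b : X → ℝ)
    (L : List X) (hb : ∀ z ∈ L, ∀ J, nn x f J (w z) ≤ b z) :
    |wk (fun v w => frS (SF x f) v w) (L.map w)| ≤ (L.map b).prod := by
  have ht : ∀ v w : G →₀ ℝ, Tendsto (fun J => SJ x f J v w) atTop (𝓝 (frS (SF x f) v w)) := by
    intro v w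
    have h1 : (fun J => SJ x f J v w) = fun J : ℕ => frS (SF x f) v w -
        (1 / 2) ^ J * frS (DD f (x ^ 2 ^ J)) v w := by
      funext J
      rw [frS_SJ hx J]; ring
    have h2 : Tendsto (fun J : ℕ => (1 / 2 : ℝ) ^ J * frS (DD f (x ^ 2 ^ J)) v w) atTop (𝓝 0) := by
      simp only [frS_apply, Finsupp.sum, Finset.mul_sum]
      have h3 : (0 : ℝ) = ∑ p ∈ v.support, ∑ q ∈ w.support, v p * w q * 0 := by simp
      rw [h3]
      refine tendsto_finsetSum _ fun p _ => tendsto_finsetSum _ fun q _ => ?_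
      have h4 := (tendsto_DD hx hlog p q).const_mul (v p * w q)
      refine h4.congr fun J => ?_
      ring
    rw [h1]
    simpa using tendsto_const_nhds.sub h2
  have h5 := (tendsto_wk (SJ x f) (fun v w => frS (SF x f) v w) ht (L.map w)).abs
  refine le_of_tendsto' h5 fun J => ?_
  refine ((WB_SJ x f J).2 (L.map w)).trans ?_
  rw [List.map_map]
  exact prod_map_mono (fun z => (WB_SJ x f J).1 (w z)) L fun z hz => hb z hz J

theorem wk_SF_bound {x : G} (hx : ∀ p q, ‖f (x * p) - f (x * q)‖ = ‖f p - f q‖)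
    (hlog : ∀ (j : ℕ) (p : G), ‖f (x ^ (2 ^ j) * p) - f p‖ ^ 2 ≤ j + ‖f (x * p) - f p‖ ^ 2)
    (L : List (G →₀ ℝ)) (b : (G →₀ ℝ) → ℝ) (hb : ∀ v ∈ L, ∀ J, nn x f J v ≤ b v) :
    |wk (fun v w => frS (SF x f) v w) L| ≤ (L.map b).prod := by
  have := wk_SF_bound' hx hlog (fun v => v) b L hb
  simpa using this

/-! ### properties of the bound -/

theorem nn_nonneg (x : G) (f : G → E) (J : ℕ) (v : G →₀ ℝ) : 0 ≤ nn x f J v := (WB_SJ x f J).1 v

theorem nn_add (x : G) (f : G → E) (J : ℕ) (v w : G →₀ ℝ) :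
    nn x f J (v + w) ≤ nn x f J v + nn x f J w := by
  rw [nn, nn, nn, add_add_add_comm, ← Finset.sum_add_distrib]
  refine add_le_add ?_ (Finset.sum_le_sum fun j _ => ?_)
  · rw [map_add]; exact norm_add_le _ _
  · rw [← mul_add]
    refine mul_le_mul_of_nonneg_left ?_ (Real.sqrt_nonneg _)
    rw [map_add, map_add]
    have h1 := norm_add_le (lf (dsp f (x ^ 2 ^ j)) v) (lf (dsp f (x ^ 2 ^ j)) w)
    have h2 := norm_add_le (lf (zz f (x ^ 2 ^ j)) v) (lf (zz f (x ^ 2 ^ j)) w)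
    linarith

theorem nn_neg (x : G) (f : G → E) (J : ℕ) (v : G →₀ ℝ) : nn x f J (-v) = nn x f J v := by
  simp only [nn, map_neg, norm_neg]

theorem nn_zero (x : G) (f : G → E) (J : ℕ) : nn x f J 0 = 0 := by
  simp [nn]

/-- the constants -/
def cj (j : ℕ) : ℝ := √((1 / 2 : ℝ) ^ j) * (4 * (√(j + 1) + √(j + 1)))

theorem cj_nonneg (j : ℕ) : 0 ≤ cj j := by unfold cj; positivity

theorem summable_cj : Summable cj := by
  have h1 : ∀ j : ℕ, cj j = 8 * √((j + 1) * (1 / 2 : ℝ) ^ j) := by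
    intro j
    rw [cj, Real.sqrt_mul (by positivity)]
    ring
  have h2 : ∀ j : ℕ, ‖cj j‖ ≤ 8 * (2 * (√(3 / 4)) ^ j) := by
    intro j
    rw [h1, Real.norm_eq_abs, abs_of_nonneg (by positivity)]
    refine mul_le_mul_of_nonneg_left ?_ (by norm_num)
    rw [Real.sqrt_le_left (by positivity), mul_pow, ← pow_mul, mul_comm j 2, pow_mul,
      Real.sq_sqrt (by norm_num)]
    have h3 : ((j : ℝ) + 1) ≤ 4 * (3 / 2) ^ j := by
      induction j with
      | zero => norm_num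
      | succ j ih =>
          push_cast
          rw [pow_succ]
          have h4 : (1 : ℝ) ≤ (3 / 2) ^ j := one_le_pow₀ (by norm_num)
          nlinarith
    have h5 : (3 / 4 : ℝ) ^ j = (3 / 2) ^ j * (1 / 2) ^ j := by
      rw [← mul_pow]; norm_num
    rw [h5]
    have h6 : (0 : ℝ) < (1 / 2) ^ j := by positivity
    nlinarith
  refine Summable.of_norm_bounded ?_ h2
  refine Summable.mul_left _ (Summable.mul_left _ (summable_geometric_of_lt_one (by positivity) ?_))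
  rw [Real.sqrt_lt' one_pos]
  norm_num

/-- the constant -/
def C0 : ℝ := 1 + ∑' j, cj j

theorem one_le_C0 : 1 ≤ C0 := by
  have : 0 ≤ ∑' j, cj j := tsum_nonneg cj_nonneg
  unfold C0; linarith

theorem nn_le_of {x : G} {J : ℕ} {v : G →₀ ℝ} {A : ℝ} (hA : 0 ≤ A)
    (h0 : ‖lf (dsp f x) v‖ ≤ A)
    (h : ∀ j : ℕ, ‖lf (dsp f (x ^ 2 ^ j)) v‖ ≤ √(j + 1) * A ∧
      ‖lf (zz f (x ^ 2 ^ j)) v‖ ≤ √(j + 1) * A) : nn x f J v ≤ C0 * A := by
  have h1 : ∑ j ∈ Finset.range J, cj j ≤ ∑' j, cj j :=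
    summable_cj.sum_le_tsum _ fun j _ => cj_nonneg j
  have h2 : ∑ j ∈ Finset.range J, √((1 / 2 : ℝ) ^ j) *
      (4 * (‖lf (dsp f (x ^ 2 ^ j)) v‖ + ‖lf (zz f (x ^ 2 ^ j)) v‖)) ≤
      ∑ j ∈ Finset.range J, cj j * A := by
    refine Finset.sum_le_sum fun j _ => ?_
    rw [cj, mul_assoc]
    refine mul_le_mul_of_nonneg_left ?_ (Real.sqrt_nonneg _)
    have := h j
    nlinarith
  rw [← Finset.sum_mul] at h2
  rw [nn, C0]
  nlinarith

theorem lf_single' (w : G → E) (p : G) (a : ℝ) : lf w (Finsupp.single p a) = a • w p := by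
  simp [lf]

/-- The bound of a difference of two point masses. -/
theorem nn_two {x : G} (hx : ∀ p q, ‖f (x * p) - f (x * q)‖ = ‖f p - f q‖)
    (hlog : ∀ (j : ℕ) (p : G), ‖f (x ^ (2 ^ j) * p) - f p‖ ^ 2 ≤ j + ‖f (x * p) - f p‖ ^ 2)
    (J : ℕ) (p q : G) (a b : ℝ) (hp : 1 ≤ ‖f (x * p) - f p‖) :
    nn x f J (Finsupp.single p a - Finsupp.single q b) ≤
      C0 * (|a - b| * ‖f (x * p) - f p‖ + 2 * (|b| * ‖f p - f q‖)) := by
  have hA : 0 ≤ |a - b| * ‖f (x * p) - f p‖ + 2 * (|b| * ‖f p - f q‖) := by positivity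
  have key : ∀ w : G → E, ‖lf w (Finsupp.single p a - Finsupp.single q b)‖ ≤
      |a - b| * ‖w p‖ + |b| * ‖w p - w q‖ := by
    intro w
    have e1 : lf w (Finsupp.single p a - Finsupp.single q b) = (a - b) • w p + b • (w p - w q) := by
      rw [map_sub, lf_single', lf_single', sub_smul, smul_sub]
      abel
    rw [e1]
    refine (norm_add_le _ _).trans (le_of_eq ?_)
    rw [norm_smul, norm_smul, Real.norm_eq_abs, Real.norm_eq_abs]
  have hj : ∀ j : ℕ, ‖dsp f (x ^ 2 ^ j) p‖ ≤ √(j + 1) * ‖f (x * p) - f p‖ := by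
    intro j
    have h1 := hlog j p
    rw [dsp]
    have h2 : ‖f (x ^ 2 ^ j * p) - f p‖ = √(‖f (x ^ 2 ^ j * p) - f p‖ ^ 2) := by
      rw [Real.sqrt_sq (norm_nonneg _)]
    have h3 : √(j + 1) * ‖f (x * p) - f p‖ = √((j + 1) * ‖f (x * p) - f p‖ ^ 2) := by
      rw [Real.sqrt_mul (by positivity), Real.sqrt_sq (norm_nonneg _)]
    rw [h2, h3]
    refine Real.sqrt_le_sqrt (h1.trans ?_)
    have h4 : (0 : ℝ) ≤ j := Nat.cast_nonneg j
    have h5 : (1 : ℝ) ≤ ‖f (x * p) - f p‖ ^ 2 := one_le_pow₀ hp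
    nlinarith
  have h1s : ∀ j : ℕ, (1 : ℝ) ≤ √(j + 1) := by
    intro j
    rw [Real.one_le_sqrt]
    have : (0 : ℝ) ≤ j := Nat.cast_nonneg j
    linarith
  have hd := norm_nonneg (f p - f q)
  refine nn_le_of hA ?_ fun j => ⟨?_, ?_⟩
  · refine (key _).trans ?_
    have h2 := norm_dsp_sub hx p q
    have h3 : |b| * ‖dsp f x p - dsp f x q‖ ≤ |b| * (2 * ‖f p - f q‖) :=
      mul_le_mul_of_nonneg_left h2 (abs_nonneg _)
    have h4 : ‖dsp f x p‖ = ‖f (x * p) - f p‖ := rfl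
    rw [h4]; linarith
  · refine (key _).trans ?_
    have h2 := norm_dsp_sub (hinv_pow hx (2 ^ j)) p q
    have h3 : |b| * ‖dsp f (x ^ 2 ^ j) p - dsp f (x ^ 2 ^ j) q‖ ≤ |b| * (2 * ‖f p - f q‖) :=
      mul_le_mul_of_nonneg_left h2 (abs_nonneg _)
    have h4 : |a - b| * ‖dsp f (x ^ 2 ^ j) p‖ ≤ |a - b| * (√(j + 1) * ‖f (x * p) - f p‖) :=
      mul_le_mul_of_nonneg_left (hj j) (abs_nonneg _)
    have h5 : |b| * (2 * ‖f p - f q‖) ≤ √(j + 1) * (2 * (|b| * ‖f p - f q‖)) := by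
      have h6 : 0 ≤ 2 * (|b| * ‖f p - f q‖) := by positivity
      have := h1s j
      nlinarith
    linarith
  · refine (key _).trans ?_
    have h2 := norm_zz_sub (hinv_pow hx (2 ^ j)) p q
    have h3 : |b| * ‖zz f (x ^ 2 ^ j) p - zz f (x ^ 2 ^ j) q‖ ≤ |b| * (2 * ‖f p - f q‖) :=
      mul_le_mul_of_nonneg_left h2 (abs_nonneg _)
    have h4 : |a - b| * ‖zz f (x ^ 2 ^ j) p‖ ≤ |a - b| * (√(j + 1) * ‖f (x * p) - f p‖) :=
      mul_le_mul_of_nonneg_left ((norm_zz (hinv_pow hx (2 ^ j)) p).trans (hj j)) (abs_nonneg _)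
    have h5 : |b| * (2 * ‖f p - f q‖) ≤ √(j + 1) * (2 * (|b| * ‖f p - f q‖)) := by
      have h6 : 0 ≤ 2 * (|b| * ‖f p - f q‖) := by positivity
      have := h1s j
      nlinarith
    linarith

end dy

end Vale.Agent.P184.H70
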