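import Vale.Agent.P184.R3.UDefs

/-! Literals of the project on groups embeddable in Hilbert spaces. -/

namespace Vale.Agent.P184.H70

open Vale.Agent.P184.Un

universe u v

/-- [KER1a] a conditionally negative definite kernel comes from a map to a Hilbert space -/
def CNDKer {X : Type*} (ψ : X → X → ℝ) : Prop :=
  (∀ p q, ψ p q = ψ q p) ∧ (∀ p, ψ p p = 0) ∧
    ∀ (s : Finset X) (c : X → ℝ), ∑ p ∈ s, c p = 0 → ∑ p ∈ s, ∑ q ∈ s, c p * c q * ψ p q ≤ 0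

def RealizeStmt : Prop := ∀ (X : Type u) (ψ : X → X → ℝ), CNDKer ψ →
  ∃ (E : Type u) (_ : NormedAddCommGroup E) (_ : InnerProductSpace ℝ E) (f : X → E),
    ∀ p q, ‖f p - f q‖ ^ 2 = ψ p q

/-- the Bernstein function -/
noncomputable def gg (s : ℝ) : ℝ := ∑' m : ℕ, (1 - Real.exp (-(s / 4 ^ m)))

def GGStmt : Prop := (∀ s, 0 ≤ s → 0 ≤ gg s ∧ gg s ≤ 2 * s ∧ gg (4 * s) ≤ 1 + gg s) ∧
  (∀ s t, 0 ≤ s → s ≤ t → gg s ≤ gg t) ∧ (∀ (M : ℕ) (s : ℝ), (4 : ℝ) ^ (2 * M ^ 2) ≤ s → (M : ℝ) ^ 2 ≤ gg s)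

def GGKerStmt : Prop := ∀ (X : Type u) (ψ : X → X → ℝ), CNDKer ψ → CNDKer fun p q => gg (ψ p q)

/-- [KER2] the averaged kernel -/
def MeanKerStmt : Prop := ∀ (G : Type u) [Group G] (x : G), CoAmenable (Cen x) ⊥ →
  ∀ (H : Type v) [NormedAddCommGroup H] [InnerProductSpace ℝ H] (F : G → H) (K : G → ℝ),
    (∀ g p, ‖F (p * g) - F p‖ ≤ K g) → ∃ ψ : G → G → ℝ, CNDKer ψ ∧
      (∀ c ∈ Cen x, ∀ p q, ψ (c * p) (c * q) = ψ p q) ∧ (∀ g p, ψ (p * g) p ≤ K g ^ 2) ∧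
      ∀ (r : ℝ) (p : G), 0 ≤ r →
        (∀ p', p'⁻¹ * x * p' = p⁻¹ * x * p → r ≤ ‖F (x * p') - F p'‖) → r ^ 2 ≤ ψ (x * p) p

/-- [KER] -/
def KerStmt : Prop := ∀ (G : Type u) [Group G] (x : G), CoAmenable (Cen x) ⊥ →
  ∀ (H : Type v) [NormedAddCommGroup H] [InnerProductSpace ℝ H] (F : G → H) (K : G → ℝ),
    (∀ g p, ‖F (p * g) - F p‖ ≤ K g) →
    ∃ (E : Type u) (_ : NormedAddCommGroup E) (_ : InnerProductSpace ℝ E) (f : G → E),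
      (∀ c ∈ Cen x, ∀ p q, ‖f (c * p) - f (c * q)‖ = ‖f p - f q‖) ∧
      (∀ (j : ℕ) (p : G), ‖f (x ^ (2 ^ j) * p) - f p‖ ^ 2 ≤ j + ‖f (x * p) - f p‖ ^ 2) ∧
      (∀ g p, ‖f (p * g) - f p‖ ≤ 2 * K g) ∧
      ∀ (M : ℕ) (p : G), (∀ p', p'⁻¹ * x * p' = p⁻¹ * x * p →
        (2 : ℝ) ^ (2 * M ^ 2) ≤ ‖F (x * p') - F p'‖) → (M : ℝ) ≤ ‖f (x * p) - f p‖

/-- [CORE] -/
def CoreStmt : Prop := ∀ (G : Type u) [Group G] (x : G), ¬ IsOfFinOrder x → CoAmenable (Cen x) ⊥ →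
  ∀ (E : Set G) (S : Finset G) (δ : ℝ), E.Finite → 0 < δ →
    ∃ (n : ℕ) (ζ : Fin n → ℂ) (u : G → Fin n → ℂ), (∀ j, ‖ζ j‖ = 1) ∧ (∀ j, ζ j ≠ 1) ∧
      (∀ p, p⁻¹ * x * p ∈ E → ∀ j, u (x * p) j = ζ j * u p j) ∧
      (∀ p, p⁻¹ * x * p ∈ E → ∑ j, ‖u p j‖ ^ 2 = 1) ∧
      ∀ p, p⁻¹ * x * p ∈ E → ∀ s ∈ S, (p * s)⁻¹ * x * (p * s) ∈ E →
        ∑ j, ‖u (p * s) j - u p j‖ ^ 2 ≤ δ ^ 2

/-- embeddability -/
def HilbEmb (G : Type*) [Group G] : Prop :=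
  ∃ (H : Type) (_ : NormedAddCommGroup H) (_ : InnerProductSpace ℝ H) (F : G → H),
    (∀ g, ∃ K : ℝ, ∀ p, ‖F (p * g) - F p‖ ≤ K) ∧ ∀ r : ℝ, {g | ∃ p, ‖F (p * g) - F p‖ ≤ r}.Finite

/-- [MAIN] -/
def MainStmt : Prop := ∀ (G : Type u) [Group G], HilbEmb G → ∀ (q : ℕ) (e : Mat G q), IsIdem e →
  ∃ B : Finset G, ∀ x : G, CoAmenable (Cen x) ⊥ →
    (¬ IsOfFinOrder x ∨ ∀ b ∈ B, ¬ IsConj b x) → tau (ConjClasses.mk x) e = 0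

/-- the class of groups of the final theorem -/
def HilbAmen (G : Type*) [Group G] : Prop :=
  HilbEmb G ∧ (∀ x : G, ¬ IsOfFinOrder x → Mild x ∨ CoAmenable (Cen x) ⊥) ∧
    ∀ (S : Finset G) (δ : ℝ), 0 < δ → ∃ B : Finset G, ∀ x ∈ Subgroup.closure (S : Set G),
      IsOfFinOrder x → SlowAt x S δ ∨ CoAmenable (Cen x) ⊥ ∨ ∃ b ∈ B, IsConj b x

/-- [F] -/
def FinStmt : Prop :=
  (∀ (G : Type u) [Group G] (x : G), ¬ IsOfFinOrder x →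
    (∀ (S : Finset G) (h : x ∈ Subgroup.closure (S : Set G)),
      HilbEmb (Subgroup.closure (S : Set G)) ∧
        CoAmenable (Cen (⟨x, h⟩ : Subgroup.closure (S : Set G))) ⊥) → VanishesAt x) ∧
  ∀ (G : Type u) [Group G], (∀ S : Finset G, ∃ (H : Type v) (_ : Group H),
    Lifts H S ∧ HilbAmen H) → L1Bass G

end Vale.Agent.P184.H70
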