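import Vale.Agent.P184.H38.Cliff

set_option linter.all false

/-! Product bounds for the Wick functionals of kernels `⟪A v, B v'⟫`. -/

noncomputable section

namespace Vale.Agent.P184.H70

open Vale.Agent.P184.H38 Filter
open scoped InnerProductSpace Topology

/-- product bound for the Wick functional of a kernel -/
def WB {X : Type*} (S : X → X → ℝ) (b : X → ℝ) : Prop :=
  (∀ x, 0 ≤ b x) ∧ ∀ L : List X, |wk S L| ≤ (L.map b).prod

section basic

variable {X Y : Type*}

theorem prod_map_nonneg {b : X → ℝ} (hb : ∀ x, 0 ≤ b x) (L : List X) : 0 ≤ (L.map b).prod := by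
  refine List.prod_nonneg fun y hy => ?_
  obtain ⟨x, _, rfl⟩ := List.mem_map.1 hy
  exact hb x

theorem prod_map_mono {b b' : X → ℝ} (hb : ∀ x, 0 ≤ b x) (L : List X)
    (h : ∀ x ∈ L, b x ≤ b' x) : (L.map b).prod ≤ (L.map b').prod := by
  induction L with
  | nil => simp
  | cons a L ih =>
      simp only [List.map_cons, List.prod_cons]
      have h1 := h a (by simp)
      exact mul_le_mul h1 (ih fun x hx => h x (by simp [hx])) (prod_map_nonneg hb L)
        ((hb a).trans h1)

theorem WB.mono {S : X → X → ℝ} {b b' : X → ℝ} (h : WB S b) (hb : ∀ x, b x ≤ b' x) : WB S b' :=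
  ⟨fun x => (h.1 x).trans (hb x), fun L => (h.2 L).trans (prod_map_mono h.1 L fun x _ => hb x)⟩

theorem WB.congr {S S' : X → X → ℝ} {b : X → ℝ} (h : WB S b) (hS : ∀ x y, S' x y = S x y) :
    WB S' b := by
  have : S' = S := by
    funext x y; exact hS x y
  rw [this]; exact h

theorem WB.comp {S : X → X → ℝ} {b : X → ℝ} (h : WB S b) (f : Y → X) :
    WB (fun x y => S (f x) (f y)) fun x => b (f x) := by
  refine ⟨fun x => h.1 _, fun L => ?_⟩
  have h1 := wk_map (fun x y => S (f x) (f y)) S f L fun _ _ _ _ => rfl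
  have h2 := h.2 (L.map f)
  rw [h1, List.map_map] at h2
  exact h2

theorem WB.add {S S' : X → X → ℝ} {b b' : X → ℝ} (h : WB S b) (h' : WB S' b') :
    WB (fun x y => S x y + S' x y) fun x => b x + b' x := by
  refine ⟨fun x => add_nonneg (h.1 x) (h'.1 x), fun L => ?_⟩
  set u : Fin L.length → X →₀ ℝ := fun i => Finsupp.single (L.get i) 1 with hu
  have key : ∀ (T : X → X → ℝ) (c : X → ℝ), WB T c → ∀ l : List (Fin L.length),
      |wk (fun x y => frS T x y) (l.map u)| ≤ 1 * (l.map fun i => c (L.get i)).prod := by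
    intro T c hT l
    have h2 := hT.2 (l.map L.get)
    rw [wk_free T, List.map_map, List.map_map] at h2
    rw [one_mul]
    exact h2
  have h1 := wk_dsum_bound (frS S) (frS S') u u (fun i => b (L.get i)) (fun i => b' (L.get i))
    (fun i => h.1 _) (fun i => h'.1 _) 1 1 zero_le_one zero_le_one (fun l _ => key S b h l)
    (fun l _ => key S' b' h' l)
  have e1 : (List.ofFn fun i : Fin L.length => (u i, u i)) =
      L.map fun a => ((Finsupp.single a 1 : X →₀ ℝ), (Finsupp.single a 1 : X →₀ ℝ)) := by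
    apply List.ext_getElem
    · simp
    · intro m h1 h2
      simp [hu]
  have e2 : ∏ i : Fin L.length, (b (L.get i) + b' (L.get i)) = (L.map fun x => b x + b' x).prod := by
    rw [← List.prod_ofFn]
    congr 1
    apply List.ext_getElem
    · simp
    · intro m h1 h2
      simp
  rw [e1, wk_map (fun x y => S x y + S' x y) (fun x y => dS (frS S) (frS S') x y)
    (fun a => ((Finsupp.single a 1 : X →₀ ℝ), (Finsupp.single a 1 : X →₀ ℝ))) L
    (fun a _ b _ => by rw [dS_apply, frS_single, frS_single]), e2, one_mul, one_mul] at h1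
  exact h1

theorem wk_smulS (S : X → X → ℝ) (c : ℝ) (n : ℕ) : ∀ L : List X, L.length = 2 * n →
    wk (fun x y => c * S x y) L = c ^ n * wk S L := by
  induction n with
  | zero =>
      intro L hL
      have : L = [] := List.length_eq_zero_iff.1 (by omega)
      subst this
      rw [wk_nil, wk_nil]; simp
  | succ n ih =>
      intro L hL
      cases L with
      | nil => simp at hL
      | cons a L =>
          rw [List.length_cons] at hL
          rw [wk_cons, wk_cons, Finset.mul_sum]
          refine Finset.sum_congr rfl fun k _ => ?_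
          rw [ih (L.eraseIdx k) (by rw [length_erase_lt]; omega), pow_succ]
          ring

theorem WB.smul {S : X → X → ℝ} {b : X → ℝ} (h : WB S b) (c r : ℝ) (hr : 0 ≤ r)
    (hc : |c| ≤ r ^ 2) : WB (fun x y => c * S x y) fun x => r * b x := by
  refine ⟨fun x => mul_nonneg hr (h.1 x), fun L => ?_⟩
  have hprod : (L.map fun x => r * b x).prod = r ^ L.length * (L.map b).prod := by
    clear h
    induction L with
    | nil => simp
    | cons a L ih => simp only [List.map_cons, List.prod_cons, List.length_cons, ih]; ring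
  rcases Nat.even_or_odd L.length with he | ho
  · obtain ⟨n, hn⟩ := he
    rw [wk_smulS S c n L (by omega), hprod, abs_mul, abs_pow]
    refine mul_le_mul ?_ (h.2 L) (abs_nonneg _) (by positivity)
    rw [hn, ← two_mul, pow_mul]
    exact pow_le_pow_left₀ (abs_nonneg _) hc n
  · rw [wk_odd _ _ ho, abs_zero]
    exact prod_map_nonneg (fun x => mul_nonneg hr (h.1 x)) L

theorem tendsto_wk {ι : Type*} {l : Filter ι} (S : ι → X → X → ℝ) (S' : X → X → ℝ)
    (h : ∀ x y, Tendsto (fun J => S J x y) l (𝓝 (S' x y))) (L : List X) :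
    Tendsto (fun J => wk (S J) L) l (𝓝 (wk S' L)) := by
  induction hn : L.length using Nat.strong_induction_on generalizing L with
  | _ n ih =>
    cases L with
    | nil =>
        simp only [wk_nil]
        exact tendsto_const_nhds
    | cons a L =>
        simp only [wk_cons]
        refine tendsto_finsetSum _ fun k _ => ?_
        refine ((h a (L.get k)).const_mul _).mul (ih (L.eraseIdx k).length ?_ _ rfl)
        have := k.2
        rw [← hn, List.length_cons, length_erase_lt]
        omega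

end basic

section inner

variable {X E : Type*} [NormedAddCommGroup E] [InnerProductSpace ℝ E]

theorem coords (M : List E) : ∃ (n : ℕ) (φ : E → Fin n → ℝ), n ≤ M.length ∧
    ∀ v ∈ M, ∀ w ∈ M, ∑ j, φ v j * φ w j = ⟪v, w⟫_ℝ := by
  classical
  set W : Submodule ℝ E := Submodule.span ℝ (M.toFinset : Set E) with hW
  haveI : FiniteDimensional ℝ W := FiniteDimensional.span_finset ℝ M.toFinset
  set e := stdOrthonormalBasis ℝ W with he
  refine ⟨Module.finrank ℝ W, fun v j => ⟪v, (e j : E)⟫_ℝ, ?_, fun v hv w hw => ?_⟩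
  · exact (finrank_span_finset_le_card M.toFinset).trans (List.toFinset_card_le M)
  · have hv' : v ∈ W := Submodule.subset_span (by simpa using hv)
    have hw' : w ∈ W := Submodule.subset_span (by simpa using hw)
    have h1 := e.sum_inner_mul_inner (⟨v, hv'⟩ : W) ⟨w, hw'⟩
    simp only [Submodule.coe_inner] at h1
    rw [← h1]
    refine Finset.sum_congr rfl fun j _ => ?_
    rw [real_inner_comm w]

theorem WB_sym (A : X → E) : WB (fun x y => ⟪A x, A y⟫_ℝ) fun x => ‖A x‖ := by
  refine ⟨fun x => norm_nonneg _, fun L => ?_⟩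
  obtain ⟨n, φ, -, hφ⟩ := coords (L.map A)
  have hmem : ∀ x ∈ L, A x ∈ L.map A := fun x hx => List.mem_map.2 ⟨x, hx, rfl⟩
  have hpi : Real.sin (Real.pi / 2) = 1 := Real.sin_pi_div_two
  have h1 := wk_SM_bound (n := n) (fun _ => Real.pi) (fun _ => by rw [hpi]; exact one_pos)
    (L.map fun x j => (φ (A x) j : ℂ))
  rw [wk_map (fun x y => ⟪A x, A y⟫_ℝ) (fun x y => SM (n := n) (fun _ => Real.pi) x y)
    (fun x j => (φ (A x) j : ℂ)) L ?_] at h1
  · rw [List.map_map] at h1
    refine h1.trans (le_of_eq ?_)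
    rw [hpi, Finset.prod_const, div_one, one_pow, one_mul]
    congr 1
    refine List.map_congr_left fun x hx => ?_
    rw [Function.comp_apply, en]
    have h2 := hφ _ (hmem x hx) _ (hmem x hx)
    rw [real_inner_self_eq_norm_sq] at h2
    have h3 : ∑ j, ‖(φ (A x) j : ℂ)‖ ^ 2 = ‖A x‖ ^ 2 := by
      rw [← h2]
      refine Finset.sum_congr rfl fun j _ => ?_
      rw [Complex.norm_real, Real.norm_eq_abs, sq_abs, sq]
    rw [h3, Real.sqrt_sq (norm_nonneg _)]
  · intro x hx y hy
    rw [SM_apply, ← hφ _ (hmem x hx) _ (hmem y hy)]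
    refine Finset.sum_congr rfl fun j _ => ?_
    rw [Sth_apply, Complex.conj_ofReal, ← Complex.ofReal_mul, Complex.ofReal_re, Complex.ofReal_im,
      mul_zero, add_zero]

theorem WB_im (A B : X → E) :
    WB (fun x y => ⟪A x, A y⟫_ℝ + ⟪B x, B y⟫_ℝ + ⟪A x, B y⟫_ℝ - ⟪B x, A y⟫_ℝ)
      fun x => 2 * (‖A x‖ + ‖B x‖) := by
  refine ⟨fun x => by positivity, fun L => ?_⟩
  obtain ⟨n, φ, hn, hφ⟩ := coords (L.map A ++ L.map B)
  have hA : ∀ x ∈ L, A x ∈ L.map A ++ L.map B := fun x hx =>
    List.mem_append.2 (Or.inl (List.mem_map.2 ⟨x, hx, rfl⟩))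
  have hB : ∀ x ∈ L, B x ∈ L.map A ++ L.map B := fun x hx =>
    List.mem_append.2 (Or.inr (List.mem_map.2 ⟨x, hx, rfl⟩))
  have hpi : Real.pi / 2 / 2 = Real.pi / 4 := by ring
  have hs : Real.sin (Real.pi / 2 / 2) = √2 / 2 := by rw [hpi, Real.sin_pi_div_four]
  have hc : Real.cos (Real.pi / 2 / 2) = √2 / 2 := by rw [hpi, Real.cos_pi_div_four]
  have h2 : (0 : ℝ) < √2 := by positivity
  have hs0 : 0 < Real.sin (Real.pi / 2 / 2) := by rw [hs]; positivity
  have h1 := wk_SM_bound (n := n) (fun _ => Real.pi / 2) (fun _ => hs0)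
    (L.map fun x j => (⟨φ (B x) j, φ (A x) j⟩ : ℂ))
  rw [wk_map (fun x y => ⟪A x, A y⟫_ℝ + ⟪B x, B y⟫_ℝ + ⟪A x, B y⟫_ℝ - ⟪B x, A y⟫_ℝ)
    (fun x y => SM (n := n) (fun _ => Real.pi / 2) x y)
    (fun x j => (⟨φ (B x) j, φ (A x) j⟩ : ℂ)) L ?_] at h1
  · rw [List.map_map] at h1
    refine h1.trans ?_
    have e1 : ∏ _j : Fin n, 1 / Real.sin (Real.pi / 2 / 2) = √2 ^ n := by
      rw [Finset.prod_const, Finset.card_univ, Fintype.card_fin, hs]
      congr 1
      have := Real.mul_self_sqrt (show (0 : ℝ) ≤ 2 by norm_num)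
      field_simp
      nlinarith
    rw [e1]
    have e2 : √2 ^ n ≤ 2 ^ L.length := by
      have h3 : n ≤ 2 * L.length := by
        rw [List.length_append, List.length_map, List.length_map] at hn; omega
      have h4 : (1 : ℝ) ≤ √2 := by
        rw [Real.one_le_sqrt]; norm_num
      refine (pow_le_pow_right₀ h4 h3).trans (le_of_eq ?_)
      rw [pow_mul, Real.sq_sqrt (by norm_num)]
    have e3 : ∀ x ∈ L, en (fun j => (⟨φ (B x) j, φ (A x) j⟩ : ℂ)) ≤ ‖A x‖ + ‖B x‖ := by
      intro x hx
      rw [en, Real.sqrt_le_left (by positivity)]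
      have h5 := hφ _ (hA x hx) _ (hA x hx)
      have h6 := hφ _ (hB x hx) _ (hB x hx)
      rw [real_inner_self_eq_norm_sq] at h5 h6
      have h7 : ∑ j, ‖(⟨φ (B x) j, φ (A x) j⟩ : ℂ)‖ ^ 2 = ‖A x‖ ^ 2 + ‖B x‖ ^ 2 := by
        rw [← h5, ← h6, ← Finset.sum_add_distrib]
        refine Finset.sum_congr rfl fun j _ => ?_
        rw [← Complex.normSq_eq_norm_sq, Complex.normSq_mk]
        ring
      rw [h7]
      have := norm_nonneg (A x)
      have := norm_nonneg (B x)
      nlinarith [mul_nonneg (norm_nonneg (A x)) (norm_nonneg (B x))]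
    have e4 : (L.map (en ∘ fun x j => (⟨φ (B x) j, φ (A x) j⟩ : ℂ))).prod ≤
        (L.map fun x => ‖A x‖ + ‖B x‖).prod :=
      prod_map_mono (fun x => en_nonneg _) L e3
    have e5 : (L.map fun x => 2 * (‖A x‖ + ‖B x‖)).prod =
        2 ^ L.length * (L.map fun x => ‖A x‖ + ‖B x‖).prod := by
      clear e4 e3 e2 e1 h1 hA hB hφ hn
      induction L with
      | nil => simp
      | cons a L ih => simp only [List.map_cons, List.prod_cons, List.length_cons, ih]; ring
    rw [e5]
    exact mul_le_mul e2 e4 (prod_map_nonneg (fun x => en_nonneg _) L) (by positivity)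
  · intro x hx y hy
    rw [SM_apply, ← hφ _ (hA x hx) _ (hA y hy), ← hφ _ (hB x hx) _ (hB y hy),
      ← hφ _ (hA x hx) _ (hB y hy), ← hφ _ (hB x hx) _ (hA y hy), ← Finset.sum_add_distrib,
      ← Finset.sum_add_distrib, ← Finset.sum_sub_distrib]
    refine Finset.sum_congr rfl fun j _ => ?_
    rw [Sth_apply, hs, hc, div_self (by positivity), one_mul]
    simp only [Complex.mul_re, Complex.mul_im, Complex.conj_re, Complex.conj_im]
    ring

/-- **The Wick bound.** -/
theorem WB_inner (A B : X → E) : WB (fun x y => ⟪A x, B y⟫_ℝ) fun x => 4 * (‖A x‖ + ‖B x‖) := by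
  have h1 := (WB_im A B).smul (1 / 2) 1 zero_le_one (by norm_num [abs_of_pos])
  have h2 := (WB_sym A).smul (-(1 / 2)) 1 zero_le_one (by norm_num [abs_of_pos])
  have h3 := (WB_sym B).smul (-(1 / 2)) 1 zero_le_one (by norm_num [abs_of_pos])
  have h4 := (WB_sym fun x => A x + B x).smul (1 / 4) (1 / 2) (by norm_num)
    (by norm_num [abs_of_pos])
  have h5 := (WB_sym fun x => A x - B x).smul (-(1 / 4)) (1 / 2) (by norm_num)
    (by norm_num [abs_of_pos])
  have h6 := (((h1.add h2).add h3).add h4).add h5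
  refine (h6.congr fun x y => ?_).mono fun x => ?_
  · simp only [inner_add_left, inner_add_right, inner_sub_left, inner_sub_right]
    ring
  · have h7 := norm_add_le (A x) (B x)
    have h8 := norm_sub_le (A x) (B x)
    linarith

end inner

end Vale.Agent.P184.H70
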